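import Vale.Agent.P181.Z.H592.Real

/-!
# P181, sprint [Z]: weights in the letter ring and covariant tuples
-/

set_option autoImplicit false

namespace Vale.Agent.P181.Z.H592

open MvPolynomial Vale.Agent.P181 Vale.Agent.P181.H280 Vale.Agent.P181.H530.Torus
  Vale.Agent.P181.T4 Vale.Agent.P181.FR

variable {n N : ℕ}

lemma E_monomial (s i : Fin n) (d : (Fin n → ℕ) →₀ ℕ) (c : ℂ) :
    E s i (monomial d c) = ∑ v ∈ d.support,
      ((d v : ℂ) * (v i : ℂ) * c) • monomial (d - Finsupp.single v 1 + Finsupp.single (mvL s i v) 1)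
        (1 : ℂ) := by
  rw [E, mkDerivation_monomial, Finsupp.sum, Finset.smul_sum]
  refine Finset.sum_congr rfl fun v _ => ?_
  rw [smul_eq_mul, mul_smul_comm, X, monomial_mul, smul_smul, mul_one]
  rw [smul_monomial, smul_monomial, smul_eq_mul, smul_eq_mul]
  congr 1
  ring

lemma le_of_mem_MS {a : ℕ} {mu : Fin n → ℕ} {s : Multiset (Fin n → ℕ)} (hs : s ∈ MS n N a mu)
    {v : Fin n → ℕ} (hv : v ∈ s) : ∀ r, v r ≤ mu r := by
  intro r
  obtain ⟨t, rfl⟩ := Multiset.exists_cons_of_mem hv
  rw [← hs.2.2, Multiset.sum_cons, Pi.add_apply]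
  exact Nat.le_add_right _ _

/-- The operator `E s i` shifts the weight. -/
theorem E_mem_WA {a : ℕ} {mu : Fin n → ℕ} (s i : Fin n) {f : A n} (hf : f ∈ WA n N a mu) :
    E s i f ∈ WA n N a (mvL s i mu) := by
  classical
  rw [← support_sum_monomial_coeff f, map_sum]
  refine Submodule.sum_mem _ fun d hd => ?_
  rw [E_monomial]
  refine Submodule.sum_mem _ fun v hv => ?_
  by_cases hvi : v i = 0
  · rw [hvi, Nat.cast_zero, mul_zero, zero_mul, zero_smul]
    exact Submodule.zero_mem _
  refine Submodule.smul_mem _ _ ?_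
  intro d' hd'
  have hd'' : d - Finsupp.single v 1 + Finsupp.single (mvL s i v) 1 = d' := by
    rw [coeff_monomial] at hd'
    by_contra h
    rw [if_neg h] at hd'
    exact hd' rfl
  have hms := hf d (MvPolynomial.mem_support_iff.1 hd)
  have hvm : v ∈ Finsupp.toMultiset d := by
    rw [Finsupp.mem_toMultiset]
    exact hv
  obtain ⟨t, ht⟩ := Multiset.exists_cons_of_mem hvm
  have h1 : Finsupp.toMultiset d' = mvL s i v ::ₘ t := by
    rw [← hd'', map_add, Finsupp.toMultiset_single, one_smul]
    have h2 : d = d - Finsupp.single v 1 + Finsupp.single v 1 := by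
      rw [tsub_add_cancel_of_le]
      rw [Finsupp.single_le_iff]
      exact Nat.one_le_iff_ne_zero.2 (Finsupp.mem_support_iff.1 hv)
    have h3 : Finsupp.toMultiset (d - Finsupp.single v 1) = t := by
      rw [h2, map_add, Finsupp.toMultiset_single, one_smul, add_comm, Multiset.singleton_add] at ht
      exact (Multiset.cons_inj_right v).1 ht
    rw [h3, add_comm, Multiset.singleton_add]
  rw [h1]
  obtain ⟨hc, ha, hsum⟩ := hms
  rw [ht] at hc ha hsum
  have hle : ∀ r, v r + t.sum r = mu r := by
    intro r
    rw [← hsum, Multiset.sum_cons, Pi.add_apply]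
  refine ⟨?_, fun w hw => ?_, ?_⟩
  · rw [Multiset.card_cons] at hc ⊢
    exact hc
  · rcases Multiset.mem_cons.1 hw with rfl | hw
    · have h4 := ha v (Multiset.mem_cons_self v t)
      have h5 : ∑ r, (mvL s i v r + (if r = i then 1 else 0)) =
          ∑ r, (v r + (if r = s then 1 else 0)) := by
        refine Finset.sum_congr rfl fun r _ => ?_
        rw [mvL_apply]
        by_cases h6 : r = i
        · subst h6
          rw [if_pos rfl]
          omega
        · rw [if_neg h6]
          omega
      rw [Finset.sum_add_distrib, Finset.sum_add_distrib, Finset.sum_ite_eq' Finset.univ i,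
        Finset.sum_ite_eq' Finset.univ s, if_pos (Finset.mem_univ _), if_pos (Finset.mem_univ _)]
        at h5
      omega
    · exact ha w (Multiset.mem_cons_of_mem hw)
  · rw [Multiset.sum_cons]
    funext r
    rw [Pi.add_apply, mvL_apply, mvL_apply]
    have := hle r
    by_cases h6 : r = i
    · subst h6
      rw [if_pos rfl]
      omega
    · rw [if_neg h6]
      omega

/-- The weight operator. -/
theorem E_diag {a : ℕ} {mu : Fin n → ℕ} (r : Fin n) {f : A n} (hf : f ∈ WA n N a mu) :
    E r r f = (mu r : ℂ) • f := by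
  classical
  have h1 : ∀ v : Fin n → ℕ, v r ≠ 0 → mvL r r v = v := by
    intro v hv
    funext k
    rw [mvL_apply]
    omega
  conv_lhs => rw [← support_sum_monomial_coeff f]
  conv_rhs => rw [← support_sum_monomial_coeff f]
  rw [map_sum, Finset.smul_sum]
  refine Finset.sum_congr rfl fun d hd => ?_
  have hms := hf d (MvPolynomial.mem_support_iff.1 hd)
  rw [E_monomial]
  have h2 : ∀ v ∈ d.support, ((d v : ℂ) * (v r : ℂ) * coeff d f) •
      monomial (d - Finsupp.single v 1 + Finsupp.single (mvL r r v) 1) (1 : ℂ) =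
      ((d v : ℂ) * (v r : ℂ)) • monomial d (coeff d f) := by
    intro v hv
    by_cases h0 : v r = 0
    · rw [h0, Nat.cast_zero, mul_zero, zero_mul, zero_smul, zero_smul]
    · rw [h1 v h0, tsub_add_cancel_of_le (by
        rw [Finsupp.single_le_iff]
        exact Nat.one_le_iff_ne_zero.2 (Finsupp.mem_support_iff.1 hv)), smul_monomial,
        smul_monomial, smul_eq_mul, smul_eq_mul, mul_one]
  rw [Finset.sum_congr rfl h2, ← Finset.sum_smul]
  congr 1
  have h4 : (Finsupp.toMultiset d).sum = ∑ v ∈ d.support, d v • v := by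
    rw [Finsupp.toMultiset_apply, Finsupp.sum, ← Multiset.coe_sumAddMonoidHom, map_sum]
    refine Finset.sum_congr rfl fun v _ => ?_
    rw [map_nsmul, Multiset.coe_sumAddMonoidHom, Multiset.sum_singleton]
  have h3 : (Finsupp.toMultiset d).sum r = ∑ v ∈ d.support, d v * v r := by
    rw [h4, Finset.sum_apply]
    rfl
  rw [← hms.2.2, h3]
  push_cast
  rfl

lemma E_comm_apply (s i t k : Fin n) (f : A n) :
    E s i (E t k f) = E t k (E s i f) + (if i = t then E s k f else 0) -
      (if k = s then E t i f else 0) := by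
  have h := congrArg (fun D : Derivation ℂ (A n) (A n) => D f) (E_comm s i t k)
  simp only [Derivation.commutator_apply, Derivation.sub_apply] at h
  have h1 : (if i = t then E s k else 0) f = (if i = t then E s k f else 0 : A n) := by
    split_ifs <;> rfl
  have h2 : (if k = s then E t i else 0) f = (if k = s then E t i f else 0 : A n) := by
    split_ifs <;> rfl
  rw [h1, h2] at h
  linear_combination h

/-- Iterates of an operator on a weight vector. -/
theorem E_pow_WA {a : ℕ} {mu : Fin n → ℕ} {s i : Fin n} (hsi : s ≠ i) {f : A n}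
    (hf : f ∈ WA n N a mu) (t : ℕ) : ∃ mu' : Fin n → ℕ,
      (E s i)^[t] f ∈ WA n N a mu' ∧ mu' i = mu i - t := by
  induction t with
  | zero => exact ⟨mu, hf, rfl⟩
  | succ t ih =>
    obtain ⟨mu', h1, h2⟩ := ih
    refine ⟨mvL s i mu', ?_, ?_⟩
    · rw [Function.iterate_succ_apply']
      exact E_mem_WA s i h1
    · rw [mvL_apply, if_neg hsi.symm, if_pos rfl, h2]
      omega

/-- A letter ring element of weight zero in row `i` is killed by `E s i`. -/
theorem E_eq_zero_of_weight {a : ℕ} {mu : Fin n → ℕ} {s i : Fin n} {f : A n}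
    (hf : f ∈ WA n N a mu) (h0 : mu i = 0) : E s i f = 0 := by
  classical
  rw [← support_sum_monomial_coeff f, map_sum]
  refine Finset.sum_eq_zero fun d hd => ?_
  rw [E_monomial]
  refine Finset.sum_eq_zero fun v hv => ?_
  have hms := hf d (MvPolynomial.mem_support_iff.1 hd)
  have hvm : v ∈ Finsupp.toMultiset d := by
    rw [Finsupp.mem_toMultiset]
    exact hv
  have h1 := le_of_mem_MS hms hvm i
  have h2 : v i = 0 := by omega
  rw [h2, Nat.cast_zero, mul_zero, zero_mul, zero_smul]

/-- The operators `E s i` are nilpotent on weight vectors. -/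
theorem E_nilp {a : ℕ} {mu : Fin n → ℕ} {s i : Fin n} (hsi : s ≠ i) {f : A n}
    (hf : f ∈ WA n N a mu) : (E s i)^[mu i + 1] f = 0 := by
  obtain ⟨mu', h1, h2⟩ := E_pow_WA hsi hf (mu i)
  rw [Function.iterate_succ_apply']
  exact E_eq_zero_of_weight h1 (by rw [h2]; omega)

/-- `E j l F^t x` for `F = E l j` and a vector killed by `E j l`. -/
theorem E_F_pow {a : ℕ} {mu : Fin n → ℕ} {j l : Fin n} (hjl : j ≠ l) {x : A n}
    (hx : x ∈ WA n N a mu) (h0 : E j l x = 0) (t : ℕ) :
    E j l ((E l j)^[t + 1] x) =
      (((t : ℂ) + 1) * ((mu j : ℂ) - (mu l : ℂ) - t)) • (E l j)^[t] x := by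
  have hw : ∀ t : ℕ, E j j ((E l j)^[t] x) = ((mu j : ℂ) - t) • (E l j)^[t] x ∧
      E l l ((E l j)^[t] x) = ((mu l : ℂ) + t) • (E l j)^[t] x := by
    intro t
    induction t with
    | zero =>
      simp only [Function.iterate_zero, id_eq, Nat.cast_zero, sub_zero, add_zero]
      exact ⟨E_diag j hx, E_diag l hx⟩
    | succ t ih =>
      obtain ⟨h1, h2⟩ := ih
      rw [Function.iterate_succ_apply', E_comm_apply j j l j, E_comm_apply l l l j, h1, h2,
        Derivation.map_smul, Derivation.map_smul, if_neg hjl, if_pos rfl, if_pos rfl, if_neg hjl]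
      constructor
      · push_cast
        module
      · push_cast
        module
  induction t with
  | zero =>
    simp only [Function.iterate_zero, id_eq, Nat.cast_zero, zero_add, sub_zero, one_mul,
      Function.iterate_succ_apply', Function.iterate_zero]
    rw [E_comm_apply j l l j, h0, map_zero, if_pos rfl, if_pos rfl, E_diag j hx, E_diag l hx]
    module
  | succ t ih =>
    rw [Function.iterate_succ_apply', E_comm_apply j l l j, ih, Derivation.map_smul,
      if_pos rfl, if_pos rfl, (hw (t + 1)).1, (hw (t + 1)).2,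
      ← Function.iterate_succ_apply' (⇑(E l j)) t x]
    push_cast
    module

/-- A vector killed by `E j l` of negative weight `mu j < mu l` is zero. -/
theorem eq_zero_of_neg {a : ℕ} {mu : Fin n → ℕ} {j l : Fin n} (hjl : j ≠ l) {x : A n}
    (hx : x ∈ WA n N a mu) (h0 : E j l x = 0) (hneg : mu j < mu l) : x = 0 := by
  have key : ∀ t : ℕ, (E l j)^[t] x = 0 → x = 0 := by
    intro t
    induction t with
    | zero => exact fun h => h
    | succ t ih =>
      intro h
      apply ih
      have h1 := E_F_pow hjl hx h0 t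
      rw [h, map_zero] at h1
      have h2 : ((t : ℂ) + 1) * ((mu j : ℂ) - (mu l : ℂ) - t) ≠ 0 := by
        apply mul_ne_zero
        · exact_mod_cast Nat.succ_ne_zero t
        · have h3 : ((mu j : ℂ) - (mu l : ℂ) - t) = -(((mu l - mu j + t : ℕ) : ℕ) : ℂ) := by
            rw [Nat.cast_add, Nat.cast_sub hneg.le]
            ring
          rw [h3, neg_ne_zero, Nat.cast_ne_zero]
          omega
      exact (smul_eq_zero.1 h1.symm).resolve_left h2
  exact key _ (E_nilp hjl.symm hx)

/-- A highest weight vector is killed by the lowering operator between two rows of equal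
weight. -/
theorem E_lower_eq_zero {a : ℕ} {nu : Fin n → ℕ} {j l : Fin n} (hjl : j < l) {x : A n}
    (hx : x ∈ HA n N a nu) (heq : nu j = nu l) : E l j x = 0 := by
  obtain ⟨h1, h2⟩ := mem_HA.1 hx
  by_cases h0 : nu j = 0
  · exact E_eq_zero_of_weight h1 h0
  refine eq_zero_of_neg hjl.ne (E_mem_WA l j h1) ?_ ?_
  · rw [E_comm_apply j l l j, h2 j l hjl, map_zero, if_pos rfl, if_pos rfl, E_diag j h1,
      E_diag l h1, heq, zero_add, sub_self]
  · rw [mvL_apply, mvL_apply, if_neg hjl.ne, if_pos rfl, if_pos rfl, if_neg hjl.ne']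
    omega

/-- The rows `1, …, m`. -/
def row {m : ℕ} (hm : m < n) (l : Fin m) : Fin n := ⟨l.val + 1, by omega⟩

/-- The covariant tuple of a highest weight vector. -/
noncomputable def cov {m : ℕ} (hm : m < n) (x : A n) (l : Fin m) : A n :=
  if l.val = 0 then x else E (row hm l) ⟨1, by have := l.isLt; omega⟩ x

/-- **The raising relations of the covariant tuple.** -/
theorem cov_raise {m : ℕ} (hm : m < n) {a : ℕ} {nu : Fin n → ℕ} {x : A n}
    (hx : x ∈ HA n N a nu) {c : ℕ} (h1 : ∀ h : 1 < n, nu ⟨1, h⟩ = c + 1)
    (h2 : ∀ l : Fin m, l.val ≠ 0 → nu (row hm l) = c) (l : Fin m) {s j : Fin n} (hsj : s < j) :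
    E s j (cov hm x l) = if h : 1 ≤ s.val ∧ j = row hm l then
      cov hm x ⟨s.val - 1, by
        obtain ⟨h3, h4⟩ := h
        have h5 : s.val < (row hm l).val := h4 ▸ hsj
        have h6 : (row hm l).val = l.val + 1 := rfl
        have := l.isLt
        omega⟩ else 0 := by
  obtain ⟨hw, hr⟩ := mem_HA.1 hx
  have hn : 1 < n := by
    have := l.isLt
    omega
  by_cases hl : l.val = 0
  · have e1 : cov hm x l = x := if_pos hl
    rw [e1, hr s j hsj, dif_neg]
    rintro ⟨h3, h4⟩
    have h5 : s.val < (row hm l).val := h4 ▸ hsj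
    have h6 : (row hm l).val = l.val + 1 := rfl
    omega
  · have e1 : cov hm x l = E (row hm l) ⟨1, by omega⟩ x := if_neg hl
    rw [e1, E_comm_apply, hr s j hsj, map_zero, zero_add]
    by_cases hj : j = row hm l
    · rw [if_pos hj]
      have hsl : s.val < l.val + 1 := by
        have h5 : s.val < (row hm l).val := hj ▸ hsj
        exact h5
      have hlm := l.isLt
      by_cases hs0 : s.val = 0
      · rw [dif_neg (by rintro ⟨h3, -⟩; omega)]
        have h7 : s < ⟨1, by omega⟩ := by
          change s.val < 1
          omega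
        rw [hr _ _ h7, if_neg (by
          intro h
          rw [← h] at hs0
          exact one_ne_zero hs0), sub_zero]
      · rw [dif_pos ⟨by omega, hj⟩]
        by_cases hs1 : s.val = 1
        · have hs : s = ⟨1, hn⟩ := Fin.ext hs1
          have e2 : cov hm x ⟨s.val - 1, by omega⟩ = x := if_pos (by
            change s.val - 1 = 0
            omega)
          rw [e2, hj, hs, if_pos rfl, E_diag _ hw, E_diag _ hw, h1 hn, h2 l hl]
          push_cast
          module
        · have e2 : cov hm x ⟨s.val - 1, by omega⟩ = E s ⟨1, by omega⟩ x := by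
            have h8 : row hm ⟨s.val - 1, by omega⟩ = s := Fin.ext (by
              change s.val - 1 + 1 = s.val
              omega)
            unfold cov
            rw [if_neg (by
              change s.val - 1 ≠ 0
              omega), h8]
          rw [e2, if_neg (by
            intro h
            apply hs1
            rw [← h]), sub_zero]
    · rw [if_neg hj, dif_neg (by rintro ⟨-, h⟩; exact hj h), zero_sub, neg_eq_zero]
      split_ifs with hs
      · rcases lt_or_gt_of_ne hj with h | h
        · -- `j` is a row of the block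
          have hj1 : 1 < j.val := by
            have : s < j := hsj
            rw [← hs, Fin.lt_def] at this
            exact this
          have hjr : j = row hm ⟨j.val - 1, by
              have h6 : (row hm l).val = l.val + 1 := rfl
              have h9 : j.val < (row hm l).val := h
              have := l.isLt
              omega⟩ := Fin.ext (by
            change j.val = j.val - 1 + 1
            omega)
          refine E_lower_eq_zero h hx ?_
          rw [h2 l hl, hjr]
          exact h2 _ (by
            change j.val - 1 ≠ 0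
            omega)
        · exact hr _ _ h
      · rfl

/-- The weights of the covariant tuple. -/
theorem cov_mem_WA {m : ℕ} (hm : m < n) {a : ℕ} {nu : Fin n → ℕ} {x : A n}
    (hx : x ∈ WA n N a nu) {c : ℕ} (h1 : ∀ h : 1 < n, nu ⟨1, h⟩ = c + 1) (l : Fin m) :
    cov hm x l ∈ WA n N a (fun r => (nu r - (if r.val = 1 then 1 else 0)) +
      (if r = row hm l then 1 else 0)) := by
  have hn : 1 < n := by
    have := l.isLt
    omega
  by_cases hl : l.val = 0
  · have e1 : cov hm x l = x := if_pos hl
    have hrow : row hm l = ⟨1, hn⟩ := Fin.ext (by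
      change l.val + 1 = 1
      omega)
    rw [e1, hrow]
    convert hx using 1
    congr 1
    funext r
    by_cases h : r = ⟨1, hn⟩
    · rw [h, h1 hn]
      simp
    · rw [if_neg h, if_neg (fun h3 => h (Fin.ext h3)), Nat.sub_zero, add_zero]
  · have e1 : cov hm x l = E (row hm l) ⟨1, by omega⟩ x := if_neg hl
    rw [e1]
    have h3 := E_mem_WA (row hm l) ⟨1, hn⟩ hx
    convert h3 using 1
    congr 1
    funext r
    rw [mvL_apply]
    by_cases h : r = ⟨1, hn⟩
    · have h4 : ¬ r = row hm l := by
        rw [h]
        intro h5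
        have h6 := congrArg Fin.val h5
        change 1 = l.val + 1 at h6
        omega
      rw [if_pos h, if_neg h4, if_pos (by rw [h])]
      omega
    · rw [if_neg h, if_neg (fun h3 => h (Fin.ext h3))]
      omega

end Vale.Agent.P181.Z.H592
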