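import Vale.Agent.P181.Z.H503.S1
import Vale.Agent.P181.Z.H592.Wt

/-!
# P181, sprint [Z]: covariant matrices from highest weight vectors
-/

set_option autoImplicit false

namespace Vale.Agent.P181.Z.H592

open MvPolynomial Vale.Agent.P181 Vale.Agent.P181.H530.Torus

variable {n : ℕ}

/-- `m` highest weight vectors of weight `(·; c + 1, c, …, c; ·)` on the rows `1, …, m` whose
covariant matrix has nonzero determinant give the covariants of the Pieri step. -/
theorem cov_of_hw {m B a c : ℕ} (hm : m < n) {nu : Fin n → ℕ} (l : Fin m → A n)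
    (hl : ∀ r, l r ∈ HA n B a nu) (h1 : ∀ h : 1 < n, nu ⟨1, h⟩ = c + 1)
    (h2 : ∀ j : Fin n, 2 ≤ (j : ℕ) → (j : ℕ) ≤ m → nu j = c)
    (hdet : Matrix.det (Matrix.of fun r j : Fin m => cov hm (l r) j) ≠ 0) :
    H503S.Cov n m B a (fun r => nu r - if (r : ℕ) = 1 then 1 else 0)
      (fun r j => cov hm (l r) j) := by
  have h2' : ∀ j : Fin m, j.val ≠ 0 → nu (row hm j) = c := by
    intro j hj
    refine h2 _ ?_ ?_
    · change 2 ≤ j.val + 1
      omega
    · change j.val + 1 ≤ m
      have := j.isLt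
      omega
  refine ⟨hm, fun p q hpq r j => ?_, fun r j => ?_, fun i j hi hi' hj hj' => ?_, hdet⟩
  · rw [cov_raise hm (hl r) h1 h2' j hpq]
    by_cases h : 1 ≤ p.val ∧ q = row hm j
    · rw [dif_pos h, dif_pos ⟨congrArg Fin.val h.2, h.1⟩]
    · rw [dif_neg h, dif_neg]
      rintro ⟨h3, h4⟩
      exact h ⟨h4, Fin.ext h3⟩
  · have h3 := cov_mem_WA hm (mem_HA.1 (hl r)).1 h1 j
    have h4 : (fun r : Fin n => (nu r - if (r : ℕ) = 1 then 1 else 0) +
        if (r : ℕ) = j + 1 then 1 else 0) = (fun r => (nu r - (if r.val = 1 then 1 else 0)) +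
      (if r = row hm j then 1 else 0)) := by
      funext r
      congr 1
      by_cases h : r = row hm j
      · have h6 : (r : ℕ) = j + 1 := congrArg Fin.val h
        rw [if_pos h, if_pos h6]
      · have h6 : ¬ (r : ℕ) = j + 1 := fun h5 => h (Fin.ext h5)
        rw [if_neg h, if_neg h6]
    rw [h4]
    exact h3
  · have h5 : ∀ i : Fin n, 1 ≤ (i : ℕ) → (i : ℕ) ≤ m →
        (nu i - if (i : ℕ) = 1 then 1 else 0) = c := by
      intro i hi hi'
      by_cases h : (i : ℕ) = 1
      · have h6 : i = ⟨1, by omega⟩ := Fin.ext h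
        rw [if_pos h, h6, h1, Nat.add_sub_cancel]
      · rw [if_neg h, Nat.sub_zero]
        exact h2 i (by omega) hi'
    rw [h5 i hi hi', h5 j hj hj']

end Vale.Agent.P181.Z.H592
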