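import Vale.Agent.P181.Z.H592.Min

/-!
# P181, sprint [Z]: the Gibbs minimiser with a barrier vector

Minimise `lZ L x + ∑ (m i * x i - c i * log (x i))`, `c i ≥ 0`.
-/

set_option autoImplicit false

namespace Vale.Agent.P181.Z.H592

open Finset

variable {r : ℕ}

/-- The function which is minimised. -/
noncomputable def gC (L : Finset (Fin r → ℕ)) (D : Fin r → ℝ) (m : Fin r → ℝ)
    (x : Fin r → ℝ) : ℝ :=
  lZ L x + ∑ i, (m i * x i - D i * Real.log (x i))

theorem continuousOn_gC {L : Finset (Fin r → ℕ)} (h0 : ∀ v ∈ L, v ≠ 0) (D : Fin r → ℝ)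
    (m : Fin r → ℝ) : ContinuousOn (gC L D m) {x | ∀ i, 0 < x i} := by
  unfold gC lZ
  refine ContinuousOn.add ?_ ?_
  swap
  · refine continuousOn_finsetSum _ fun i _ => ?_
    refine ContinuousOn.sub (by fun_prop) (ContinuousOn.mul continuousOn_const ?_)
    exact ContinuousOn.log (by fun_prop) fun x hx => (hx i).ne'
  refine ContinuousOn.neg ?_
  refine continuousOn_finsetSum _ fun v hv => ?_
  refine ContinuousOn.log ?_ ?_
  · have := continuousOn_dot v
    exact (continuous_const.sub (Real.continuous_exp.comp this.neg)).continuousOn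
  · intro x hx
    exact (one_sub_pos (dot_pos hx (h0 v hv))).ne'

/-- Two-step minimiser: `gC` is minimal at `x`, and `∑ c i * x i` is minimal among the
minimisers. -/
theorem exists_minC (L : Finset (Fin r → ℕ)) (h0 : ∀ v ∈ L, v ≠ 0)
    (h1 : ∀ i, Pi.single i 1 ∈ L) {D : Fin r → ℝ} (hD : ∀ i, 0 ≤ D i) (m : Fin r → ℝ) (hm : ∀ i, 0 < m i)
    (c : Fin r → ℝ) :
    ∃ x : Fin r → ℝ, (∀ i, 0 < x i) ∧
      (∀ y : Fin r → ℝ, (∀ i, 0 < y i) → gC L D m x ≤ gC L D m y) ∧
      ∀ y : Fin r → ℝ, (∀ i, 0 < y i) → gC L D m y ≤ gC L D m x →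
        ∑ i, c i * x i ≤ ∑ i, c i * y i := by
  set κ : ℝ := ∑ i, D i * |Real.log (m i / (2 * (D i + 1)))| with hκ
  have hκ0 : 0 ≤ κ := Finset.sum_nonneg fun i _ => mul_nonneg (hD i) (abs_nonneg _)
  -- lower bound of the function
  have hlow : ∀ y : Fin r → ℝ, (∀ i, 0 < y i) →
      lZ L y + ∑ i, m i / 2 * y i ≤ gC L D m y + κ := by
    intro y hy
    have h2 : ∑ i, m i / 2 * y i ≤ ∑ i, (m i * y i - D i * Real.log (y i)) + κ := by
      rw [hκ, ← Finset.sum_add_distrib]
      refine Finset.sum_le_sum fun i _ => ?_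
      have := barrier_le (hD i) (hm i) (hy i)
      linarith
    unfold gC
    linarith
  set g1 : ℝ := gC L D m (fun _ => 1) + κ with hg1
  have one_pos' : ∀ i : Fin r, (0 : ℝ) < (fun _ : Fin r => (1 : ℝ)) i := fun _ => one_pos
  have hg0 : 0 ≤ g1 := by
    have h2 := lZ_nonneg h0 one_pos'
    have h3 : 0 ≤ ∑ i, m i / 2 * (fun _ : Fin r => (1 : ℝ)) i :=
      Finset.sum_nonneg fun i _ => mul_nonneg (half_pos (hm i)).le zero_le_one
    exact (add_nonneg h2 h3).trans (hlow _ one_pos')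
  set M : ℝ := 1 + ∑ i, g1 / (m i / 2) with hM
  set δ : ℝ := Real.exp (-g1) with hδ
  have hδ0 : 0 < δ := Real.exp_pos _
  have hδ1 : δ ≤ 1 := by
    rw [hδ, Real.exp_le_one_iff]
    linarith
  have hM1 : 1 ≤ M := by
    have : 0 ≤ ∑ i, g1 / (m i / 2) :=
      Finset.sum_nonneg fun i _ => div_nonneg hg0 (half_pos (hm i)).le
    linarith
  let K : Set (Fin r → ℝ) := Set.Icc (fun _ => δ) (fun _ => M)
  have hK : IsCompact K := isCompact_Icc
  have hKpos : ∀ x ∈ K, ∀ i, 0 < x i := fun x hx i => hδ0.trans_le (hx.1 i)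
  have hone : (fun _ => (1 : ℝ)) ∈ K := ⟨fun _ => hδ1, fun _ => hM1⟩
  -- low points are in the box
  have hin : ∀ y : Fin r → ℝ, (∀ i, 0 < y i) → gC L D m y + κ ≤ g1 → y ∈ K := by
    intro y hy hyg
    have hz := lZ_nonneg h0 hy
    have hs : 0 ≤ ∑ i, m i / 2 * y i :=
      Finset.sum_nonneg fun i _ => mul_nonneg (half_pos (hm i)).le (hy i).le
    have hyg' : lZ L y + ∑ i, m i / 2 * y i ≤ g1 := (hlow y hy).trans hyg
    refine ⟨fun i => ?_, fun i => ?_⟩
    · refine le_of_neg_log_le (hy i) ((single_le_lZ h0 h1 hy i).trans ?_)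
      linarith
    · have h2 : m i / 2 * y i ≤ ∑ j, m j / 2 * y j :=
        Finset.single_le_sum (f := fun j => m j / 2 * y j)
          (fun j _ => mul_nonneg (half_pos (hm j)).le (hy j).le) (mem_univ i)
      have h3 : y i ≤ g1 / (m i / 2) := by
        rw [le_div_iff₀ (half_pos (hm i))]
        linarith
      have h4 : g1 / (m i / 2) ≤ ∑ j, g1 / (m j / 2) :=
        Finset.single_le_sum (f := fun j => g1 / (m j / 2))
          (fun j _ => div_nonneg hg0 (half_pos (hm j)).le) (mem_univ i)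
      change y i ≤ M
      linarith
  have hcont : ContinuousOn (gC L D m) K := (continuousOn_gC h0 D m).mono hKpos
  obtain ⟨x0, hx0, hmin⟩ := hK.exists_isMinOn ⟨_, hone⟩ hcont
  let S : Set (Fin r → ℝ) := K ∩ gC L D m ⁻¹' Set.Iic (gC L D m x0)
  have hSc : IsCompact S := by
    refine hK.of_isClosed_subset ?_ Set.inter_subset_left
    exact hcont.preimage_isClosed_of_isClosed hK.isClosed isClosed_Iic
  have hx0S : x0 ∈ S := ⟨hx0, le_refl (gC L D m x0)⟩
  have hcF : ContinuousOn (fun x : Fin r → ℝ => ∑ i, c i * x i) S := by fun_prop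
  obtain ⟨x, hxS, hxmin⟩ := hSc.exists_isMinOn ⟨_, hx0S⟩ hcF
  have hxK : x ∈ K := hxS.1
  have hxg : gC L D m x ≤ gC L D m x0 := hxS.2
  have hx0g : gC L D m x0 + κ ≤ g1 := by
    have : gC L D m x0 ≤ gC L D m (fun _ => 1) := hmin hone
    linarith
  refine ⟨x, hKpos x hxK, ?_, ?_⟩
  · intro y hy
    by_cases hyg : gC L D m y + κ ≤ g1
    · exact hxg.trans (hmin (hin y hy hyg))
    · push Not at hyg
      linarith
  · intro y hy hyx
    have h2 : gC L D m y + κ ≤ g1 := by linarith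
    exact hxmin (⟨hin y hy h2, hyx.trans hxg⟩ : y ∈ S)

/-- At the minimum the mean is `m i - D i / x i`. -/
theorem mean_eqC {L : Finset (Fin r → ℕ)} (h0 : ∀ v ∈ L, v ≠ 0) {D : Fin r → ℝ} {m x : Fin r → ℝ}
    (hx : ∀ i, 0 < x i) (hmin : ∀ y : Fin r → ℝ, (∀ i, 0 < y i) → gC L D m x ≤ gC L D m y)
    (i : Fin r) :
    ∑ v ∈ L, (v i : ℝ) * (Real.exp (-dot x v) / (1 - Real.exp (-dot x v))) = m i - D i / x i := by
  let φ : ℝ → ℝ := fun t =>
    (- ∑ v ∈ L, Real.log (1 - Real.exp (-(dot x v + t * v i)))) +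
      (∑ j ∈ univ.erase i, (m j * x j - D j * Real.log (x j)) +
        (m i * (x i + t) - D i * Real.log (x i + t)))
  have hφ : ∀ t, gC L D m (x + Pi.single i t) = φ t := by
    intro t
    simp only [gC, lZ, dot_add_single, φ]
    congr 1
    rw [← Finset.sum_erase_add _ _ (mem_univ i)]
    congr 1
    · refine Finset.sum_congr rfl fun j hj => ?_
      have hj' : j ≠ i := (Finset.mem_erase.mp hj).1
      simp [Pi.single_eq_of_ne hj']
    · simp
  have hd : HasDerivAt φ
      ((- ∑ v ∈ L, (v i : ℝ) * (Real.exp (-dot x v) / (1 - Real.exp (-dot x v)))) +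
        (m i - D i * (1 / x i))) 0 := by
    refine HasDerivAt.add ?_ ?_
    · refine HasDerivAt.neg ?_
      refine HasDerivAt.fun_sum fun v hv => ?_
      have hp := one_sub_pos (dot_pos hx (h0 v hv))
      have e1 : HasDerivAt (fun t : ℝ => -(dot x v + t * v i)) (-(1 * (v i : ℝ))) 0 :=
        (((hasDerivAt_id' (0 : ℝ)).mul_const (v i : ℝ)).const_add (dot x v)).fun_neg
      have e2 := (e1.exp.const_sub 1).log (by simpa using hp.ne')
      refine e2.congr_deriv ?_
      rw [zero_mul, add_zero]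
      ring
    · refine HasDerivAt.const_add _ ?_
      have e0 : HasDerivAt (fun t : ℝ => x i + t) 1 0 := (hasDerivAt_id' (0 : ℝ)).const_add (x i)
      have e3 := e0.const_mul (m i)
      have e4 := (e0.log (by simpa using (hx i).ne')).const_mul (D i)
      refine (e3.fun_sub e4).congr_deriv ?_
      rw [add_zero, mul_one]
  have hloc : IsLocalMin φ 0 := by
    have h2 : ∀ᶠ t : ℝ in nhds 0, -(x i) < t := by
      apply lt_mem_nhds
      have := hx i
      linarith
    filter_upwards [h2] with t ht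
    have h3 : φ 0 = gC L D m x := by
      rw [← hφ 0]
      simp
    rw [h3, ← hφ t]
    refine hmin _ fun j => ?_
    by_cases hj : j = i
    · subst hj
      simp only [Pi.add_apply, Pi.single_eq_same]
      linarith
    · simp only [Pi.add_apply, Pi.single_eq_of_ne hj, add_zero]
      exact hx j
  have := hloc.hasDerivAt_eq_zero hd
  have h5 : D i * (1 / x i) = D i / x i := by ring
  linarith

/-- **MIN with a barrier vector**: a positive `x` at which the mean of the total weight is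
`m i - c i / x i`; it is a minimiser. -/
theorem exists_gibbsC (L : Finset (Fin r → ℕ)) (h0 : ∀ v ∈ L, v ≠ 0)
    (h1 : ∀ i, Pi.single i 1 ∈ L) (c : Fin r → ℝ) (hc : ∀ i, 0 ≤ c i) (m : Fin r → ℝ)
    (hm : ∀ i, 0 < m i) :
    ∃ x : Fin r → ℝ, (∀ i, 0 < x i) ∧
      (∀ y : Fin r → ℝ, (∀ i, 0 < y i) → gC L c m x ≤ gC L c m y) ∧
      ∀ i, ∑ v ∈ L, (v i : ℝ) * (Real.exp (-dot x v) / (1 - Real.exp (-dot x v)))
        + c i / x i = m i := by
  obtain ⟨x, hx, hmin, -⟩ := exists_minC L h0 h1 hc m hm (fun _ => 0)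
  refine ⟨x, hx, hmin, fun i => ?_⟩
  rw [mean_eqC h0 hx hmin i]
  ring

end Vale.Agent.P181.Z.H592
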