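import Mathlib

/-!
# P181, sprint [Z]: the Gibbs weight of a partition function of vectors

`lZ L x = - ∑_{v ∈ L} log (1 - e^{-x·v})`.  For positive `m` there is a positive `x` which
minimises `lZ L x + x·m`; at `x` the mean of the total weight is `m`.
-/

set_option autoImplicit false

namespace Vale.Agent.P181.Z.H592

open Finset

variable {r : ℕ}

/-- `x · v`. -/
noncomputable def dot (x : Fin r → ℝ) (v : Fin r → ℕ) : ℝ := ∑ i, x i * v i

/-- The logarithm of the partition function. -/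
noncomputable def lZ (L : Finset (Fin r → ℕ)) (x : Fin r → ℝ) : ℝ :=
  - ∑ v ∈ L, Real.log (1 - Real.exp (-dot x v))

/-- The function which is minimised. -/
noncomputable def gG (L : Finset (Fin r → ℕ)) (D : ℝ) (m : Fin r → ℝ) (x : Fin r → ℝ) : ℝ :=
  lZ L x + ∑ i, (m i * x i - D * Real.log (x i))

/-- `1 - e^{-x·v}` is positive. -/
theorem dot_pos {x : Fin r → ℝ} (hx : ∀ i, 0 < x i) {v : Fin r → ℕ} (hv : v ≠ 0) :
    0 < dot x v := by
  obtain ⟨i, hi⟩ := Function.ne_iff.mp hv
  have h1 : (0 : ℝ) < v i := by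
    exact_mod_cast Nat.pos_of_ne_zero hi
  refine Finset.sum_pos' (fun j _ => mul_nonneg (hx j).le (Nat.cast_nonneg _)) ⟨i, mem_univ _, ?_⟩
  exact mul_pos (hx i) h1

theorem one_sub_pos {t : ℝ} (ht : 0 < t) : 0 < 1 - Real.exp (-t) := by
  have : Real.exp (-t) < 1 := by
    rw [Real.exp_lt_one_iff]
    linarith
  linarith

theorem neg_log_nonneg {t : ℝ} (ht : 0 < t) : 0 ≤ - Real.log (1 - Real.exp (-t)) := by
  have h1 := one_sub_pos ht
  have h2 : 1 - Real.exp (-t) ≤ 1 := by
    have := Real.exp_pos (-t)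
    linarith
  have := Real.log_nonpos h1.le h2
  linarith

theorem lZ_nonneg {L : Finset (Fin r → ℕ)} (h0 : ∀ v ∈ L, v ≠ 0) {x : Fin r → ℝ}
    (hx : ∀ i, 0 < x i) : 0 ≤ lZ L x := by
  unfold lZ
  rw [← Finset.sum_neg_distrib]
  exact Finset.sum_nonneg fun v hv => neg_log_nonneg (dot_pos hx (h0 v hv))

theorem dot_single (x : Fin r → ℝ) (i : Fin r) : dot x (Pi.single i 1) = x i := by
  unfold dot
  rw [Finset.sum_eq_single i]
  · simp
  · intro j _ hj
    simp [Pi.single_eq_of_ne hj]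
  · simp

theorem single_le_lZ {L : Finset (Fin r → ℕ)} (h0 : ∀ v ∈ L, v ≠ 0)
    (h1 : ∀ i, Pi.single i 1 ∈ L) {x : Fin r → ℝ} (hx : ∀ i, 0 < x i) (i : Fin r) :
    - Real.log (1 - Real.exp (-x i)) ≤ lZ L x := by
  unfold lZ
  rw [← Finset.sum_neg_distrib]
  have := Finset.single_le_sum (f := fun v => - Real.log (1 - Real.exp (-dot x v)))
    (fun v hv => neg_log_nonneg (dot_pos hx (h0 v hv))) (h1 i)
  simpa [dot_single] using this

theorem le_of_neg_log_le {t g : ℝ} (ht : 0 < t) (h : - Real.log (1 - Real.exp (-t)) ≤ g) :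
    Real.exp (-g) ≤ t := by
  have h1 := one_sub_pos ht
  have h2 : Real.exp (-g) ≤ 1 - Real.exp (-t) := by
    rw [← Real.le_log_iff_exp_le h1]
    linarith
  have h3 : 1 - Real.exp (-t) ≤ t := by
    have := Real.add_one_le_exp (-t)
    linarith
  linarith

theorem continuousOn_dot (v : Fin r → ℕ) : Continuous fun x : Fin r → ℝ => dot x v := by
  unfold dot
  fun_prop

theorem continuousOn_gG {L : Finset (Fin r → ℕ)} (h0 : ∀ v ∈ L, v ≠ 0) (D : ℝ)
    (m : Fin r → ℝ) : ContinuousOn (gG L D m) {x | ∀ i, 0 < x i} := by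
  unfold gG lZ
  refine ContinuousOn.add ?_ ?_
  swap
  · refine continuousOn_finsetSum _ fun i _ => ?_
    refine ContinuousOn.sub (by fun_prop) (ContinuousOn.mul continuousOn_const ?_)
    exact ContinuousOn.log (by fun_prop) fun x hx => (hx i).ne'
  refine ContinuousOn.neg ?_
  refine continuousOn_finsetSum _ fun v hv => ?_
  refine ContinuousOn.log ?_ ?_
  · have := continuousOn_dot v
    exact (continuous_const.sub (Real.continuous_exp.comp this.neg)).continuousOn
  · intro x hx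
    exact (one_sub_pos (dot_pos hx (h0 v hv))).ne'

/-- The barrier is dominated by half of the linear term. -/
theorem barrier_le {D m t : ℝ} (hD : 0 ≤ D) (hm : 0 < m) (ht : 0 < t) :
    D * Real.log t ≤ m / 2 * t + D * |Real.log (m / (2 * (D + 1)))| := by
  have hc : 0 < m / (2 * (D + 1)) := by positivity
  have h1 : Real.log (m / (2 * (D + 1)) * t) ≤ m / (2 * (D + 1)) * t - 1 :=
    Real.log_le_sub_one_of_pos (mul_pos hc ht)
  rw [Real.log_mul hc.ne' ht.ne'] at h1
  have h2 : Real.log t ≤ m / (2 * (D + 1)) * t + |Real.log (m / (2 * (D + 1)))| := by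
    have := neg_abs_le (Real.log (m / (2 * (D + 1))))
    linarith
  have h3 : D * (m / (2 * (D + 1)) * t) ≤ m / 2 * t := by
    have h4 : D * (m / (2 * (D + 1)) * t) = m / 2 * t * (D / (D + 1)) := by
      field_simp
    rw [h4]
    have h5 : D / (D + 1) ≤ 1 := by
      rw [div_le_one (by linarith)]
      linarith
    have h6 : 0 ≤ m / 2 * t := by positivity
    calc m / 2 * t * (D / (D + 1)) ≤ m / 2 * t * 1 := mul_le_mul_of_nonneg_left h5 h6
      _ = m / 2 * t := mul_one _
  calc D * Real.log t ≤ D * (m / (2 * (D + 1)) * t + |Real.log (m / (2 * (D + 1)))|) :=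
        mul_le_mul_of_nonneg_left h2 hD
    _ ≤ m / 2 * t + D * |Real.log (m / (2 * (D + 1)))| := by
        rw [mul_add]
        linarith

/-- Two-step minimiser: `gG` is minimal at `x`, and `∑ c i * x i` is minimal among the
minimisers. -/
theorem exists_min (L : Finset (Fin r → ℕ)) (h0 : ∀ v ∈ L, v ≠ 0)
    (h1 : ∀ i, Pi.single i 1 ∈ L) {D : ℝ} (hD : 0 ≤ D) (m : Fin r → ℝ) (hm : ∀ i, 0 < m i)
    (c : Fin r → ℝ) :
    ∃ x : Fin r → ℝ, (∀ i, 0 < x i) ∧
      (∀ y : Fin r → ℝ, (∀ i, 0 < y i) → gG L D m x ≤ gG L D m y) ∧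
      ∀ y : Fin r → ℝ, (∀ i, 0 < y i) → gG L D m y ≤ gG L D m x →
        ∑ i, c i * x i ≤ ∑ i, c i * y i := by
  set κ : ℝ := ∑ i, D * |Real.log (m i / (2 * (D + 1)))| with hκ
  have hκ0 : 0 ≤ κ := Finset.sum_nonneg fun i _ => mul_nonneg hD (abs_nonneg _)
  -- lower bound of the function
  have hlow : ∀ y : Fin r → ℝ, (∀ i, 0 < y i) →
      lZ L y + ∑ i, m i / 2 * y i ≤ gG L D m y + κ := by
    intro y hy
    have h2 : ∑ i, m i / 2 * y i ≤ ∑ i, (m i * y i - D * Real.log (y i)) + κ := by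
      rw [hκ, ← Finset.sum_add_distrib]
      refine Finset.sum_le_sum fun i _ => ?_
      have := barrier_le hD (hm i) (hy i)
      linarith
    unfold gG
    linarith
  set g1 : ℝ := gG L D m (fun _ => 1) + κ with hg1
  have one_pos' : ∀ i : Fin r, (0 : ℝ) < (fun _ : Fin r => (1 : ℝ)) i := fun _ => one_pos
  have hg0 : 0 ≤ g1 := by
    have h2 := lZ_nonneg h0 one_pos'
    have h3 : 0 ≤ ∑ i, m i / 2 * (fun _ : Fin r => (1 : ℝ)) i :=
      Finset.sum_nonneg fun i _ => mul_nonneg (half_pos (hm i)).le zero_le_one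
    exact (add_nonneg h2 h3).trans (hlow _ one_pos')
  set M : ℝ := 1 + ∑ i, g1 / (m i / 2) with hM
  set δ : ℝ := Real.exp (-g1) with hδ
  have hδ0 : 0 < δ := Real.exp_pos _
  have hδ1 : δ ≤ 1 := by
    rw [hδ, Real.exp_le_one_iff]
    linarith
  have hM1 : 1 ≤ M := by
    have : 0 ≤ ∑ i, g1 / (m i / 2) :=
      Finset.sum_nonneg fun i _ => div_nonneg hg0 (half_pos (hm i)).le
    linarith
  let K : Set (Fin r → ℝ) := Set.Icc (fun _ => δ) (fun _ => M)
  have hK : IsCompact K := isCompact_Icc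
  have hKpos : ∀ x ∈ K, ∀ i, 0 < x i := fun x hx i => hδ0.trans_le (hx.1 i)
  have hone : (fun _ => (1 : ℝ)) ∈ K := ⟨fun _ => hδ1, fun _ => hM1⟩
  -- low points are in the box
  have hin : ∀ y : Fin r → ℝ, (∀ i, 0 < y i) → gG L D m y + κ ≤ g1 → y ∈ K := by
    intro y hy hyg
    have hz := lZ_nonneg h0 hy
    have hs : 0 ≤ ∑ i, m i / 2 * y i :=
      Finset.sum_nonneg fun i _ => mul_nonneg (half_pos (hm i)).le (hy i).le
    have hyg' : lZ L y + ∑ i, m i / 2 * y i ≤ g1 := (hlow y hy).trans hyg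
    refine ⟨fun i => ?_, fun i => ?_⟩
    · refine le_of_neg_log_le (hy i) ((single_le_lZ h0 h1 hy i).trans ?_)
      linarith
    · have h2 : m i / 2 * y i ≤ ∑ j, m j / 2 * y j :=
        Finset.single_le_sum (f := fun j => m j / 2 * y j)
          (fun j _ => mul_nonneg (half_pos (hm j)).le (hy j).le) (mem_univ i)
      have h3 : y i ≤ g1 / (m i / 2) := by
        rw [le_div_iff₀ (half_pos (hm i))]
        linarith
      have h4 : g1 / (m i / 2) ≤ ∑ j, g1 / (m j / 2) :=
        Finset.single_le_sum (f := fun j => g1 / (m j / 2))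
          (fun j _ => div_nonneg hg0 (half_pos (hm j)).le) (mem_univ i)
      change y i ≤ M
      linarith
  have hcont : ContinuousOn (gG L D m) K := (continuousOn_gG h0 D m).mono hKpos
  obtain ⟨x0, hx0, hmin⟩ := hK.exists_isMinOn ⟨_, hone⟩ hcont
  let S : Set (Fin r → ℝ) := K ∩ gG L D m ⁻¹' Set.Iic (gG L D m x0)
  have hSc : IsCompact S := by
    refine hK.of_isClosed_subset ?_ Set.inter_subset_left
    exact hcont.preimage_isClosed_of_isClosed hK.isClosed isClosed_Iic
  have hx0S : x0 ∈ S := ⟨hx0, le_refl (gG L D m x0)⟩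
  have hcF : ContinuousOn (fun x : Fin r → ℝ => ∑ i, c i * x i) S := by fun_prop
  obtain ⟨x, hxS, hxmin⟩ := hSc.exists_isMinOn ⟨_, hx0S⟩ hcF
  have hxK : x ∈ K := hxS.1
  have hxg : gG L D m x ≤ gG L D m x0 := hxS.2
  have hx0g : gG L D m x0 + κ ≤ g1 := by
    have : gG L D m x0 ≤ gG L D m (fun _ => 1) := hmin hone
    linarith
  refine ⟨x, hKpos x hxK, ?_, ?_⟩
  · intro y hy
    by_cases hyg : gG L D m y + κ ≤ g1
    · exact hxg.trans (hmin (hin y hy hyg))
    · push Not at hyg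
      linarith
  · intro y hy hyx
    have h2 : gG L D m y + κ ≤ g1 := by linarith
    exact hxmin (⟨hin y hy h2, hyx.trans hxg⟩ : y ∈ S)

/-- `dot` along a coordinate line. -/
theorem dot_add_single (x : Fin r → ℝ) (i : Fin r) (t : ℝ) (v : Fin r → ℕ) :
    dot (x + Pi.single i t) v = dot x v + t * v i := by
  unfold dot
  simp only [Pi.add_apply, add_mul, Finset.sum_add_distrib]
  congr 1
  rw [Finset.sum_eq_single i]
  · simp
  · intro j _ hj
    simp [Pi.single_eq_of_ne hj]
  · simp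

/-- At the minimum the mean is `m i - D / x i`. -/
theorem mean_eq {L : Finset (Fin r → ℕ)} (h0 : ∀ v ∈ L, v ≠ 0) {D : ℝ} {m x : Fin r → ℝ}
    (hx : ∀ i, 0 < x i) (hmin : ∀ y : Fin r → ℝ, (∀ i, 0 < y i) → gG L D m x ≤ gG L D m y)
    (i : Fin r) :
    ∑ v ∈ L, (v i : ℝ) * (Real.exp (-dot x v) / (1 - Real.exp (-dot x v))) = m i - D / x i := by
  let φ : ℝ → ℝ := fun t =>
    (- ∑ v ∈ L, Real.log (1 - Real.exp (-(dot x v + t * v i)))) +
      (∑ j ∈ univ.erase i, (m j * x j - D * Real.log (x j)) +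
        (m i * (x i + t) - D * Real.log (x i + t)))
  have hφ : ∀ t, gG L D m (x + Pi.single i t) = φ t := by
    intro t
    simp only [gG, lZ, dot_add_single, φ]
    congr 1
    rw [← Finset.sum_erase_add _ _ (mem_univ i)]
    congr 1
    · refine Finset.sum_congr rfl fun j hj => ?_
      have hj' : j ≠ i := (Finset.mem_erase.mp hj).1
      simp [Pi.single_eq_of_ne hj']
    · simp
  have hd : HasDerivAt φ
      ((- ∑ v ∈ L, (v i : ℝ) * (Real.exp (-dot x v) / (1 - Real.exp (-dot x v)))) +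
        (m i - D * (1 / x i))) 0 := by
    refine HasDerivAt.add ?_ ?_
    · refine HasDerivAt.neg ?_
      refine HasDerivAt.fun_sum fun v hv => ?_
      have hp := one_sub_pos (dot_pos hx (h0 v hv))
      have e1 : HasDerivAt (fun t : ℝ => -(dot x v + t * v i)) (-(1 * (v i : ℝ))) 0 :=
        (((hasDerivAt_id' (0 : ℝ)).mul_const (v i : ℝ)).const_add (dot x v)).fun_neg
      have e2 := (e1.exp.const_sub 1).log (by simpa using hp.ne')
      refine e2.congr_deriv ?_
      rw [zero_mul, add_zero]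
      ring
    · refine HasDerivAt.const_add _ ?_
      have e0 : HasDerivAt (fun t : ℝ => x i + t) 1 0 := (hasDerivAt_id' (0 : ℝ)).const_add (x i)
      have e3 := e0.const_mul (m i)
      have e4 := (e0.log (by simpa using (hx i).ne')).const_mul D
      refine (e3.fun_sub e4).congr_deriv ?_
      rw [add_zero, mul_one]
  have hloc : IsLocalMin φ 0 := by
    have h2 : ∀ᶠ t : ℝ in nhds 0, -(x i) < t := by
      apply lt_mem_nhds
      have := hx i
      linarith
    filter_upwards [h2] with t ht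
    have h3 : φ 0 = gG L D m x := by
      rw [← hφ 0]
      simp
    rw [h3, ← hφ t]
    refine hmin _ fun j => ?_
    by_cases hj : j = i
    · subst hj
      simp only [Pi.add_apply, Pi.single_eq_same]
      linarith
    · simp only [Pi.add_apply, Pi.single_eq_of_ne hj, add_zero]
      exact hx j
  have := hloc.hasDerivAt_eq_zero hd
  have h5 : D * (1 / x i) = D / x i := by ring
  linarith

theorem sum_swap (c x : Fin r → ℝ) {i j : Fin r} (hij : i ≠ j) :
    ∑ k, c k * x (Equiv.swap i j k) = ∑ k, c k * x k + (c i - c j) * (x j - x i) := by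
  have h : ∑ k, (c k * x (Equiv.swap i j k) - c k * x k)
      = (c i * x j - c i * x i) + (c j * x i - c j * x j) := by
    rw [Fintype.sum_eq_add i j hij]
    · simp
    · intro k hk
      rw [Equiv.swap_apply_of_ne_of_ne hk.1 hk.2]
      ring
  rw [Finset.sum_sub_distrib] at h
  linarith

theorem lZ_swap {L : Finset (Fin r → ℕ)}
    (hs : ∀ i j : Fin r, ∀ v ∈ L, (fun k => v (Equiv.swap i j k)) ∈ L)
    (x : Fin r → ℝ) (i j : Fin r) : lZ L (fun k => x (Equiv.swap i j k)) = lZ L x := by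
  unfold lZ
  congr 1
  refine Finset.sum_nbij' (fun v k => v (Equiv.swap i j k)) (fun v k => v (Equiv.swap i j k))
    (hs i j) (hs i j) (fun v _ => by simp) (fun v _ => by simp) (fun v _ => ?_)
  have : dot (fun k => x (Equiv.swap i j k)) v = dot x (fun k => v (Equiv.swap i j k)) := by
    unfold dot
    refine Fintype.sum_equiv (Equiv.swap i j) _ _ fun k => ?_
    simp
  rw [this]

/-- **MIN.**  A positive increasing `x` at which the mean of the total weight is `m i - D / x i`;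
it is a minimiser of `lZ + x·m - D ∑ log x i`. -/
theorem exists_gibbs (L : Finset (Fin r → ℕ)) (h0 : ∀ v ∈ L, v ≠ 0)
    (h1 : ∀ i, Pi.single i 1 ∈ L)
    (hs : ∀ i j : Fin r, ∀ v ∈ L, (fun k => v (Equiv.swap i j k)) ∈ L)
    {D : ℝ} (hD : 0 ≤ D) (m : Fin r → ℝ) (hm : ∀ i, 0 < m i) (hanti : Antitone m) :
    ∃ x : Fin r → ℝ, (∀ i, 0 < x i) ∧ Monotone x ∧
      (∀ y : Fin r → ℝ, (∀ i, 0 < y i) → gG L D m x ≤ gG L D m y) ∧
      ∀ i, ∑ v ∈ L, (v i : ℝ) * (Real.exp (-dot x v) / (1 - Real.exp (-dot x v)))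
        = m i - D / x i := by
  obtain ⟨x, hx, hmin, hF⟩ := exists_min L h0 h1 hD m hm (fun i => (r : ℝ) - i)
  refine ⟨x, hx, ?_, hmin, fun i => mean_eq h0 hx hmin i⟩
  intro i j hij
  rcases hij.eq_or_lt with rfl | hlt
  · exact le_rfl
  by_contra hcon
  push Not at hcon
  have hne : i ≠ j := hlt.ne
  let y : Fin r → ℝ := fun k => x (Equiv.swap i j k)
  have hy : ∀ k, 0 < y k := fun k => hx _
  have hlog : ∑ k, D * Real.log (y k) = ∑ k, D * Real.log (x k) :=
    Fintype.sum_equiv (Equiv.swap i j) _ _ fun k => rfl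
  have hg : gG L D m y ≤ gG L D m x := by
    unfold gG
    rw [lZ_swap hs, Finset.sum_sub_distrib, Finset.sum_sub_distrib, hlog, sum_swap m x hne]
    have := hanti hlt.le
    nlinarith
  have h3 := hF y hy hg
  rw [sum_swap _ x hne] at h3
  have h4 : (0 : ℝ) < ((r : ℝ) - (i : ℕ)) - ((r : ℝ) - (j : ℕ)) := by
    have : ((i : ℕ) : ℝ) < ((j : ℕ) : ℝ) := by exact_mod_cast hlt
    linarith
  nlinarith

end Vale.Agent.P181.Z.H592
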