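import Mathlib

/-!
# P181, sprint [Z]: the rank argument

A linear family of homogeneous polynomials `H f` in `m` variables with `H f (e_i) = f`; after the
substitution `y_j = ∑ r, C_r L r j` with `det L ≠ 0` the coefficients determine `f`.
-/

set_option autoImplicit false

namespace Vale.Agent.P181.Z.H592

open MvPolynomial Matrix

variable {R : Type*} [CommRing R]

/-- The substitution `y_j = ∑ r, C_r L r j`. -/
noncomputable def subL {m : ℕ} (L : Matrix (Fin m) (Fin m) R) :
    MvPolynomial (Fin m) R →ₐ[R] MvPolynomial (Fin m) R :=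
  aeval (fun j => ∑ r, X r * C (L r j))

lemma subL_X {m : ℕ} (L : Matrix (Fin m) (Fin m) R) (j : Fin m) :
    subL L (X j) = ∑ r, X r * C (L r j) := by
  rw [subL, aeval_X]

lemma subL_C {m : ℕ} (L : Matrix (Fin m) (Fin m) R) (c : R) : subL L (C c) = C c := by
  rw [subL, ← algebraMap_eq, AlgHom.commutes]

lemma isHomogeneous_subL {m : ℕ} (L : Matrix (Fin m) (Fin m) R) {p : MvPolynomial (Fin m) R}
    {k : ℕ} (hp : p.IsHomogeneous k) : (subL L p).IsHomogeneous k := by
  have h := hp.aeval (n := 1) (fun j => ∑ r, X r * C (L r j)) (fun j => by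
    refine IsHomogeneous.sum _ _ _ fun r _ => ?_
    have := (isHomogeneous_X R r).mul (isHomogeneous_C (Fin m) (L r j))
    simpa using this)
  rw [one_mul] at h
  exact h

/-- Evaluation of a homogeneous polynomial at a multiple of a point. -/
lemma eval_smul_hom {m : ℕ} {p : MvPolynomial (Fin m) R} {k : ℕ} (hp : p.IsHomogeneous k)
    (c : R) (y : Fin m → R) : eval (fun j => c * y j) p = c ^ k * eval y p := by
  rw [eval_eq, eval_eq, Finset.mul_sum]
  refine Finset.sum_congr rfl fun d hd => ?_
  have h1 : ∑ i ∈ d.support, d i = k := by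
    have := hp (MvPolynomial.mem_support_iff.1 hd)
    rw [← this, Finsupp.weight_apply, Finsupp.sum]
    simp
  have h2 : ∏ i ∈ d.support, (c * y i) ^ d i = c ^ k * ∏ i ∈ d.support, y i ^ d i := by
    simp_rw [mul_pow]
    rw [Finset.prod_mul_distrib, Finset.prod_pow_eq_pow_sum, h1]
  rw [h2]
  ring

/-- If all coefficients after the substitution vanish then the polynomial vanishes at every
basis vector. -/
theorem eval_single_eq_zero [IsDomain R] {m : ℕ} {L : Matrix (Fin m) (Fin m) R}
    (hL : L.det ≠ 0) {p : MvPolynomial (Fin m) R} {k : ℕ} (hp : p.IsHomogeneous k)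
    (h0 : subL L p = 0) (i : Fin m) : eval (Pi.single i 1) p = 0 := by
  have h1 : eval (fun r => L.adjugate i r) (subL L p) = 0 := by
    rw [h0, map_zero]
  have h2 : eval (fun r => L.adjugate i r) (subL L p) =
      eval (fun j => L.det * (Pi.single i 1 : Fin m → R) j) p := by
    have key : (eval (fun r => L.adjugate i r)).comp (subL L : MvPolynomial (Fin m) R →+*
        MvPolynomial (Fin m) R) = eval (fun j => L.det * (Pi.single i 1 : Fin m → R) j) := by
      apply MvPolynomial.ringHom_ext
      · intro c
        rw [RingHom.comp_apply, RingHom.coe_coe, subL_C, eval_C, eval_C]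
      · intro j
        rw [RingHom.comp_apply, RingHom.coe_coe, subL_X, map_sum, eval_X]
        have h3 := congrFun (congrFun (Matrix.adjugate_mul L) i) j
        rw [Matrix.mul_apply] at h3
        simp only [map_mul, eval_X, eval_C]
        rw [h3, Matrix.smul_apply, smul_eq_mul, Matrix.one_apply, Pi.single_apply]
        simp only [eq_comm]
    exact congrArg (fun φ => φ p) key
  rw [h2, eval_smul_hom hp] at h1
  exact (mul_eq_zero.1 h1).resolve_left (pow_ne_zero _ hL)

/-- **(P5) The rank argument.** -/
theorem finrank_le_of_family [IsDomain R] [Algebra ℂ R] (V V' : Submodule ℂ R)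
    [Module.Finite ℂ V'] {m k : ℕ} (i : Fin m)
    (H : V →ₗ[ℂ] MvPolynomial (Fin m) R) (hhom : ∀ f, (H f).IsHomogeneous k)
    (hev : ∀ f : V, eval (Pi.single i 1) (H f) = (f : R)) (L : Matrix (Fin m) (Fin m) R)
    (hL : L.det ≠ 0) (hV : ∀ (f : V) (β : Fin m →₀ ℕ), coeff β (subL L (H f)) ∈ V') :
    Module.finrank ℂ V ≤ (k + 1) ^ m * Module.finrank ℂ V' := by
  classical
  let T := Fin m → Fin (k + 1)
  let e : T → (Fin m →₀ ℕ) := fun u => Finsupp.equivFunOnFinite.symm (fun p => (u p : ℕ))
  let Ψ : V →ₗ[ℂ] (T → V') :=
    { toFun := fun f u => ⟨coeff (e u) (subL L (H f)), hV f (e u)⟩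
      map_add' := fun f g => by
        funext u
        apply Subtype.ext
        simp only [map_add, coeff_add, Pi.add_apply, Submodule.coe_add]
      map_smul' := fun c f => by
        funext u
        apply Subtype.ext
        simp only [map_smul, RingHom.id_apply, Pi.smul_apply, Submodule.coe_smul]
        have h1 : subL L (c • H f) = c • subL L (H f) := by
          rw [← algebraMap_smul R c (H f), map_smul, algebraMap_smul]
        rw [h1, coeff_smul] }
  have hΨ : Function.Injective Ψ := by
    rw [injective_iff_map_eq_zero]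
    intro f hf
    have h0 : subL L (H f) = 0 := by
      apply MvPolynomial.ext
      intro β
      rw [coeff_zero]
      by_contra hβ
      have hdeg := (isHomogeneous_subL L (hhom f)) hβ
      have h1 : ∀ p, β p < k + 1 := by
        intro p
        have h2 : β p ≤ k := by
          rw [← hdeg, Finsupp.weight_apply, Finsupp.sum_fintype _ _ (by simp)]
          have h3 := Finset.single_le_sum (f := fun j => β j) (fun _ _ => Nat.zero_le _)
            (Finset.mem_univ p)
          simpa using h3
        omega
      have h5 := congrArg Subtype.val (congrFun hf (fun p => ⟨β p, h1 p⟩))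
      have h6 : e (fun p => ⟨β p, h1 p⟩) = β := by
        ext p
        rfl
      apply hβ
      rw [← h6]
      exact h5
    apply Subtype.ext
    rw [← hev f, eval_single_eq_zero hL (hhom f) h0 i]
    rfl
  have h1 := LinearMap.finrank_le_finrank_of_injective hΨ
  rw [Module.finrank_pi_fintype, Finset.sum_const, Finset.card_univ, smul_eq_mul,
    Fintype.card_fun, Fintype.card_fin, Fintype.card_fin] at h1
  exact h1

end Vale.Agent.P181.Z.H592
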