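import Vale.Agent.P181.H530.Torus2

/-!
# P181, sprint [Z]: highest weight vectors in the polynomial ring in the letters

`A n` is the polynomial ring in the letters `X v`, `v : Fin n → ℕ`; `E s i` is the row operator.
`HA n N a θ` is the space of the highest weight vectors of weight `θ` of degree `N` in letters of
total `a`.  Its dimension is `plethMult N a n θ`.
-/

set_option autoImplicit false

namespace Vale.Agent.P181.Z.H592

open MvPolynomial Vale.Agent.P181 Vale.Agent.P181.H280 Vale.Agent.P181.H530.Torus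
  Vale.Agent.P181.T4 Vale.Agent.P181.FR

variable {n N : ℕ}

/-- The polynomial ring in the letters. -/
abbrev A (n : ℕ) := MvPolynomial (Fin n → ℕ) ℂ

/-- Moving one unit from `i` to `s`. -/
def mvL (s i : Fin n) (v : Fin n → ℕ) : Fin n → ℕ := v + Pi.single s 1 - Pi.single i 1

/-- The row operator `E s i`. -/
noncomputable def E (s i : Fin n) : Derivation ℂ (A n) (A n) :=
  mkDerivation ℂ (fun v => (v i : ℂ) • X (mvL s i v))

lemma E_X (s i : Fin n) (v : Fin n → ℕ) : E s i (X v) = (v i : ℂ) • X (mvL s i v) := by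
  rw [E, mkDerivation_X]

lemma mvL_apply (s i : Fin n) (v : Fin n → ℕ) (k : Fin n) :
    mvL s i v k = v k + (if k = s then 1 else 0) - (if k = i then 1 else 0) := by
  simp only [mvL, Pi.sub_apply, Pi.add_apply, Pi.single_apply]

/-- Two moves at once. -/
def mv2 (s i t k : Fin n) (v : Fin n → ℕ) : Fin n → ℕ := fun r =>
  (v r + (if r = s then 1 else 0) + (if r = t then 1 else 0)) -
    ((if r = i then 1 else 0) + (if r = k then 1 else 0))

lemma mvL_mvL {s i t k : Fin n} {v : Fin n → ℕ} (hk : v k ≠ 0) :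
    mvL s i (mvL t k v) = mv2 s i t k v := by
  funext r
  simp only [mvL_apply, mv2]
  rcases eq_or_ne r k with rfl | h
  · rw [if_pos rfl]
    split_ifs <;> omega
  · rw [if_neg h]
    split_ifs <;> omega

lemma mv2_comm (s i t k : Fin n) (v : Fin n → ℕ) : mv2 s i t k v = mv2 t k s i v := by
  funext r
  simp only [mv2]
  split_ifs <;> omega

lemma mv2_left (s i k : Fin n) (v : Fin n → ℕ) : mv2 s i i k v = mvL s k v := by
  funext r
  simp only [mvL_apply, mv2]
  split_ifs <;> omega

lemma mv2_right (t i k : Fin n) (v : Fin n → ℕ) : mv2 k i t k v = mvL t i v := by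
  funext r
  simp only [mvL_apply, mv2]
  split_ifs <;> omega

lemma coef_mvL (t k i : Fin n) (v : Fin n → ℕ) :
    (v k : ℂ) * (mvL t k v i : ℂ) = (v k : ℂ) * ((v i : ℂ) + (if i = t then 1 else 0) -
      (if i = k then 1 else 0)) := by
  rcases Nat.eq_zero_or_pos (v k) with h | h
  · rw [h, Nat.cast_zero, zero_mul, zero_mul]
  · congr 1
    rw [mvL_apply]
    by_cases h1 : i = k
    · subst h1
      rw [if_pos rfl, if_pos rfl, Nat.cast_sub (by omega)]
      push_cast
      rfl
    · rw [if_neg h1, if_neg h1, Nat.sub_zero]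
      push_cast
      ring

lemma E_E_X (s i t k : Fin n) (v : Fin n → ℕ) :
    E s i (E t k (X v)) = ((v k : ℂ) * ((v i : ℂ) + (if i = t then 1 else 0) -
      (if i = k then 1 else 0))) • X (mv2 s i t k v) := by
  rw [E_X, Derivation.map_smul, E_X, smul_smul, coef_mvL]
  by_cases hk : v k = 0
  · rw [hk, Nat.cast_zero, zero_mul, zero_smul, zero_smul]
  · rw [mvL_mvL hk]

/-- The commutator of two row operators. -/
theorem E_comm (s i t k : Fin n) :
    ⁅E s i, E t k⁆ = (if i = t then E s k else 0) - (if k = s then E t i else 0) := by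
  classical
  apply MvPolynomial.derivation_ext
  intro v
  rw [Derivation.commutator_apply, Derivation.sub_apply, E_E_X, E_E_X, mv2_comm t k s i v,
    ← sub_smul]
  have hX1 : (if i = t then E s k else 0) (X v) =
      (if i = t then (v k : ℂ) else 0) • X (mv2 s i t k v) := by
    split_ifs with h
    · subst h
      rw [E_X, mv2_left]
    · rw [zero_smul]
      rfl
  have hX2 : (if k = s then E t i else 0) (X v) =
      (if k = s then (v i : ℂ) else 0) • X (mv2 s i t k v) := by
    split_ifs with h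
    · subst h
      rw [E_X, mv2_right]
    · rw [zero_smul]
      rfl
  rw [hX1, hX2, ← sub_smul]
  congr 1
  by_cases h1 : i = k
  · subst h1
    rw [if_pos rfl]
    split_ifs <;> ring
  · rw [if_neg h1, if_neg (Ne.symm h1)]
    split_ifs <;> ring

/-! ### The letter map -/

/-- The product of the letters of the columns. -/
noncomputable def lmon (m : Fin n × Fin N →₀ ℕ) : A n := ∏ j : Fin N, X (fun i => m (i, j))

/-- The letter map. -/
noncomputable def lm (n N : ℕ) : MvPolynomial (Fin n × Fin N) ℂ →ₗ[ℂ] A n :=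
  (basisMonomials (Fin n × Fin N) ℂ).constr ℂ lmon

lemma lm_monomial (m : Fin n × Fin N →₀ ℕ) : lm n N (monomial m 1) = lmon m := by
  have h := (basisMonomials (Fin n × Fin N) ℂ).constr_basis ℂ lmon m
  rwa [coe_basisMonomials] at h

lemma lmon_eq (m : Fin n × Fin N →₀ ℕ) :
    lmon m = monomial (Multiset.toFinsupp (cols m)) (1 : ℂ) := by
  classical
  have h : ∀ s : Multiset (Fin n → ℕ),
      monomial (Multiset.toFinsupp s) (1 : ℂ) = (s.map (X : (Fin n → ℕ) → A n)).prod := by
    intro s
    induction s using Multiset.induction_on with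
    | empty => simp
    | cons v s ih =>
      rw [Multiset.map_cons, Multiset.prod_cons, ← ih, ← Multiset.singleton_add, map_add,
        Multiset.toFinsupp_singleton, X, monomial_mul, one_mul]
  rw [h, cols, Multiset.map_map]
  rfl

/-- Derivations of products. -/
lemma deriv_prod {ι : Type} [DecidableEq ι] {R : Type*} [CommRing R] [Algebra ℂ R]
    (D : Derivation ℂ R R) (s : Finset ι) (f : ι → R) :
    D (∏ j ∈ s, f j) = ∑ j ∈ s, (∏ k ∈ s.erase j, f k) * D (f j) := by
  induction s using Finset.induction_on with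
  | empty => simp
  | insert a s ha ih =>
    rw [Finset.prod_insert ha, D.leibniz, ih, Finset.sum_insert ha, Finset.erase_insert ha,
      smul_eq_mul, smul_eq_mul, Finset.mul_sum, add_comm]
    congr 1
    refine Finset.sum_congr rfl fun j hj => ?_
    have hne : j ≠ a := fun h => ha (h ▸ hj)
    rw [Finset.erase_insert_of_ne hne.symm, Finset.prod_insert (fun h => ha (Finset.mem_of_mem_erase h)),
      mul_assoc]

/-- The letter map commutes with the row operators. -/
theorem lm_rowOp (s i : Fin n) (f : MvPolynomial (Fin n × Fin N) ℂ) :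
    lm n N (rowOp s i f) = E s i (lm n N f) := by
  classical
  have key : (lm n N) ∘ₗ (rowOp s i) = (E s i : A n →ₗ[ℂ] A n) ∘ₗ (lm n N) := by
    apply (basisMonomials (Fin n × Fin N) ℂ).ext
    intro m
    rw [coe_basisMonomials, LinearMap.comp_apply, LinearMap.comp_apply, lm_monomial, rowOp_apply,
      map_sum]
    change _ = E s i (lmon m)
    rw [lmon, deriv_prod]
    refine Finset.sum_congr rfl fun j _ => ?_
    rw [pderiv_monomial, one_mul, X, monomial_mul, one_mul, E_X]
    have h1 : monomial (Finsupp.single (s, j) 1 + (m - Finsupp.single (i, j) 1)) (m (i, j) : ℂ) =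
        (m (i, j) : ℂ) • monomial (Finsupp.single (s, j) 1 + (m - Finsupp.single (i, j) 1))
          (1 : ℂ) := by
      rw [smul_monomial, smul_eq_mul, mul_one]
    rw [h1, map_smul, lm_monomial, mul_smul_comm]
    by_cases h0 : m (i, j) = 0
    · rw [h0, Nat.cast_zero, zero_smul, zero_smul]
    congr 1
    rw [lmon, ← Finset.mul_prod_erase _ _ (Finset.mem_univ j), mul_comm]
    congr 1
    · refine Finset.prod_congr rfl fun j' hj' => ?_
      have hne : j' ≠ j := Finset.ne_of_mem_erase hj'
      congr 1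
      funext r
      rw [Finsupp.add_apply, Finsupp.tsub_apply, Finsupp.single_apply, Finsupp.single_apply,
        if_neg (fun h => hne (Prod.mk.inj h).2.symm), if_neg (fun h => hne (Prod.mk.inj h).2.symm),
        zero_add, Nat.sub_zero]
    · congr 1
      funext r
      rw [Finsupp.add_apply, Finsupp.tsub_apply, Finsupp.single_apply, Finsupp.single_apply,
        mvL_apply]
      simp only [Prod.mk.injEq, and_true]
      rcases eq_or_ne r i with rfl | h
      · rw [if_pos rfl]
        have : (if s = r then 1 else 0) = (if r = s then 1 else 0) := by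
          simp only [eq_comm]
        rw [this]
        omega
      · rw [if_neg h, if_neg (Ne.symm h)]
        have : (if s = r then 1 else 0) = (if r = s then 1 else 0) := by
          simp only [eq_comm]
        rw [this]
        omega
  exact LinearMap.congr_fun key f

/-! ### Weight spaces and highest weight vectors -/

/-- The weight space: degree `N`, letters of total `a`, weight `mu`. -/
noncomputable def WA (n N a : ℕ) (mu : Fin n → ℕ) : Submodule ℂ (A n) where
  carrier := {f | ∀ d : (Fin n → ℕ) →₀ ℕ, coeff d f ≠ 0 → Finsupp.toMultiset d ∈ MS n N a mu}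
  zero_mem' := fun d hd => absurd (coeff_zero d) hd
  add_mem' := by
    intro f g hf hg d hd
    rw [coeff_add] at hd
    by_cases h : coeff d f = 0
    · rw [h, zero_add] at hd
      exact hg d hd
    · exact hf d h
  smul_mem' := by
    intro c f hf d hd
    rw [coeff_smul, smul_eq_mul] at hd
    exact hf d (right_ne_zero_of_mul hd)

lemma mem_WA {a : ℕ} {mu : Fin n → ℕ} {f : A n} : f ∈ WA n N a mu ↔
    ∀ d : (Fin n → ℕ) →₀ ℕ, coeff d f ≠ 0 → Finsupp.toMultiset d ∈ MS n N a mu := Iff.rfl

/-- The highest weight vectors. -/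
noncomputable def HA (n N a : ℕ) (theta : Fin n → ℕ) : Submodule ℂ (A n) :=
  WA n N a theta ⊓ ⨅ q ∈ Up n, LinearMap.ker (E q.1 q.2 : A n →ₗ[ℂ] A n)

lemma mem_HA {a : ℕ} {theta : Fin n → ℕ} {f : A n} : f ∈ HA n N a theta ↔
    f ∈ WA n N a theta ∧ ∀ s i : Fin n, s < i → E s i f = 0 := by
  rw [HA, Submodule.mem_inf, Submodule.mem_iInf]
  refine and_congr_right fun _ => ?_
  constructor
  · intro h s i hsi
    have h1 := h (s, i)
    rw [Submodule.mem_iInf] at h1
    exact h1 (mem_Up.2 hsi)
  · intro h q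
    rw [Submodule.mem_iInf]
    intro hq
    exact h q.1 q.2 (mem_Up.1 hq)

lemma lm_eq_sum (f : MvPolynomial (Fin n × Fin N) ℂ) :
    lm n N f = ∑ m ∈ f.support, monomial (Multiset.toFinsupp (cols m)) (coeff m f) := by
  conv_lhs => rw [← support_sum_monomial_coeff f]
  rw [map_sum]
  refine Finset.sum_congr rfl fun m _ => ?_
  have h1 : monomial m (coeff m f) = coeff m f • (monomial m 1 : MvPolynomial (Fin n × Fin N) ℂ) := by
    rw [smul_monomial, smul_eq_mul, mul_one]
  rw [h1, map_smul, lm_monomial, lmon_eq, smul_monomial, smul_eq_mul, mul_one]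

lemma coeff_lm (f : MvPolynomial (Fin n × Fin N) ℂ) (d : (Fin n → ℕ) →₀ ℕ) :
    coeff d (lm n N f) =
      ∑ m ∈ f.support.filter (fun m => Multiset.toFinsupp (cols m) = d), coeff m f := by
  classical
  rw [lm_eq_sum, coeff_sum, Finset.sum_filter]
  refine Finset.sum_congr rfl fun m _ => ?_
  rw [coeff_monomial]

/-- The letter map is injective on symmetric polynomials. -/
theorem lm_inj {f : MvPolynomial (Fin n × Fin N) ℂ} (hs : ∀ τ : Equiv.Perm (Fin N), ren n τ f = f)
    (h0 : lm n N f = 0) : f = 0 := by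
  classical
  by_contra hne
  obtain ⟨m, hm⟩ := MvPolynomial.ne_zero_iff.1 hne
  have h1 : coeff (Multiset.toFinsupp (cols m)) (lm n N f) = 0 := by
    rw [h0, coeff_zero]
  rw [coeff_lm] at h1
  have h2 : ∀ m' ∈ f.support.filter (fun m' => Multiset.toFinsupp (cols m') =
      Multiset.toFinsupp (cols m)), coeff m' f = coeff m f := by
    intro m' hm'
    have h3 : cols m' = cols m := Multiset.toFinsupp.injective (Finset.mem_filter.1 hm').2
    obtain ⟨τ, hτ⟩ := exists_perm_cols h3
    have h4 := coeff_ren τ f hτ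
    rw [hs τ] at h4
    exact h4.symm
  rw [Finset.sum_congr rfl h2, Finset.sum_const, nsmul_eq_mul, mul_eq_zero] at h1
  rcases h1 with h1 | h1
  · rw [Nat.cast_eq_zero, Finset.card_eq_zero] at h1
    have h5 : m ∈ f.support.filter (fun m' => Multiset.toFinsupp (cols m') =
      Multiset.toFinsupp (cols m)) := Finset.mem_filter.2 ⟨MvPolynomial.mem_support_iff.2 hm, rfl⟩
    rw [h1] at h5
    exact absurd h5 (Finset.notMem_empty _)
  · exact hm h1

lemma lm_mem_WA {a : ℕ} {mu : Fin n → ℕ} {P : Finset (Fin n × Fin n)}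
    {f : MvPolynomial (Fin n × Fin N) ℂ} (hf : f ∈ W n N a P mu) : lm n N f ∈ WA n N a mu := by
  classical
  intro d hd
  rw [coeff_lm] at hd
  obtain ⟨m, hm, hm0⟩ := Finset.exists_ne_zero_of_sum_ne_zero hd
  have h1 := (Finset.mem_filter.1 hm).2
  rw [← h1, Multiset.toFinsupp_toMultiset]
  exact cols_mem_MS.2 (hf.2.1 m hm0)

lemma lm_ren (τ : Equiv.Perm (Fin N)) (f : MvPolynomial (Fin n × Fin N) ℂ) :
    lm n N (ren n τ f) = lm n N f := by
  have key : (lm n N) ∘ₗ (rename (pv n τ)).toLinearMap = lm n N := by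
    apply (basisMonomials (Fin n × Fin N) ℂ).ext
    intro m
    rw [coe_basisMonomials, LinearMap.comp_apply, AlgHom.toLinearMap_apply, rename_monomial,
      lm_monomial, lm_monomial, lmon_eq, lmon_eq, cols_mapDomain]
  exact LinearMap.congr_fun key f

lemma lm_symP (f : MvPolynomial (Fin n × Fin N) ℂ) :
    lm n N (symP N n f) = (Fintype.card (Equiv.Perm (Fin N)) : ℂ) • lm n N f := by
  rw [symP_apply, map_sum]
  have h1 : ∀ σ ∈ (Finset.univ : Finset (Equiv.Perm (Fin N))),
      lm n N (rename (fun ij : Fin n × Fin N => (ij.1, σ ij.2)) f) = lm n N f := fun σ _ =>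
    lm_ren σ f
  rw [Finset.sum_congr rfl h1, Finset.sum_const, Finset.card_univ, Nat.cast_smul_eq_nsmul]

/-- Every vector of the weight space comes from a symmetric polynomial. -/
theorem exists_lm {a : ℕ} {mu : Fin n → ℕ} {f : A n} (hf : f ∈ WA n N a mu) :
    ∃ F ∈ W n N a ∅ mu, lm n N F = f := by
  classical
  obtain ⟨c, hcc⟩ : ∃ c : ℂ, c = (Fintype.card (Equiv.Perm (Fin N)) : ℂ) := ⟨_, rfl⟩
  have hc : c ≠ 0 := by
    rw [hcc, Nat.cast_ne_zero]
    exact Fintype.card_ne_zero
  have hd : ∀ d ∈ f.support, Finsupp.toMultiset d ∈ MS n N a mu := fun d hd =>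
    hf d (MvPolynomial.mem_support_iff.1 hd)
  refine ⟨∑ d ∈ f.support.attach, (coeff d.1 f / c) •
    symP N n (monomial (rep ⟨Finsupp.toMultiset d.1, hd d.1 d.2⟩) 1), ?_, ?_⟩
  · exact Submodule.sum_mem _ fun d _ => Submodule.smul_mem _ _ (symP_mono_mem _)
  · rw [map_sum]
    conv_rhs => rw [← support_sum_monomial_coeff f, ← Finset.sum_attach]
    refine Finset.sum_congr rfl fun d _ => ?_
    rw [map_smul, lm_symP, lm_monomial, lmon_eq, cols_rep, smul_smul, ← hcc,
      div_mul_cancel₀ _ hc]
    change coeff d.1 f • monomial (Multiset.toFinsupp (Finsupp.toMultiset d.1)) (1 : ℂ) = _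
    rw [Finsupp.toMultiset_toFinsupp, smul_monomial, smul_eq_mul, mul_one]

/-- The same for highest weight vectors. -/
theorem exists_lm_HA {a : ℕ} {theta : Fin n → ℕ} {f : A n} (hf : f ∈ HA n N a theta) :
    ∃ F ∈ W n N a (Up n) theta, lm n N F = f := by
  obtain ⟨h1, h2⟩ := mem_HA.1 hf
  obtain ⟨F, hF, hFf⟩ := exists_lm h1
  refine ⟨F, ⟨hF.1, hF.2.1, fun q hq => ?_⟩, hFf⟩
  apply lm_inj (n := n) (N := N)
  · intro τ
    rw [ren_rowOp, hF.1]
  · rw [lm_rowOp, hFf]
    exact h2 _ _ (mem_Up.1 hq)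

lemma lm_mem_HA {a : ℕ} {theta : Fin n → ℕ} {F : MvPolynomial (Fin n × Fin N) ℂ}
    (hF : F ∈ W n N a (Up n) theta) : lm n N F ∈ HA n N a theta := by
  refine mem_HA.2 ⟨lm_mem_WA hF, fun s i hsi => ?_⟩
  rw [← lm_rowOp, hF.2.2 (s, i) (mem_Up.2 hsi), map_zero]

/-- The letter map is an isomorphism onto the highest weight vectors, also inside any
subspace. -/
theorem finrank_HA_inf (a : ℕ) (theta : Fin n → ℕ) (I : Submodule ℂ (A n)) :
    Module.finrank ℂ (W n N a (Up n) theta ⊓ I.comap (lm n N) :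
      Submodule ℂ (MvPolynomial (Fin n × Fin N) ℂ)) =
      Module.finrank ℂ (HA n N a theta ⊓ I : Submodule ℂ (A n)) := by
  let L : (W n N a (Up n) theta ⊓ I.comap (lm n N) :
      Submodule ℂ (MvPolynomial (Fin n × Fin N) ℂ)) →ₗ[ℂ] (HA n N a theta ⊓ I : Submodule ℂ (A n)) :=
    (lm n N).restrict (fun F hF => ⟨lm_mem_HA hF.1, hF.2⟩)
  refine LinearEquiv.finrank_eq (LinearEquiv.ofBijective L ⟨?_, ?_⟩)
  · rw [injective_iff_map_eq_zero]
    rintro ⟨F, hF⟩ h0
    apply Subtype.ext
    have h1 : lm n N F = 0 := congrArg Subtype.val h0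
    exact lm_inj hF.1.1 h1
  · rintro ⟨f, hf⟩
    obtain ⟨F, hF, hFf⟩ := exists_lm_HA hf.1
    refine ⟨⟨F, hF, ?_⟩, Subtype.ext hFf⟩
    change lm n N F ∈ I
    rw [hFf]
    exact hf.2

/-- **The multiplicity is the dimension of the space of highest weight vectors in the letter
ring.** -/
theorem plethMult_eq_HA (a : ℕ) (theta : Fin n → ℕ) :
    plethMult N a n theta = Module.finrank ℂ (HA n N a theta) := by
  rw [plethMult_eq_W]
  have h := finrank_HA_inf (N := N) a theta (⊤ : Submodule ℂ (A n))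
  rw [Submodule.comap_top, inf_top_eq, inf_top_eq] at h
  exact h

instance finite_HA (a : ℕ) (theta : Fin n → ℕ) : Module.Finite ℂ (HA n N a theta) := by
  have h : HA n N a theta = (W n N a (Up n) theta).map (lm n N) := by
    apply le_antisymm
    · intro f hf
      obtain ⟨F, hF, hFf⟩ := exists_lm_HA hf
      exact ⟨F, hF, hFf⟩
    · rintro _ ⟨F, hF, rfl⟩
      exact lm_mem_HA hF
  rw [h]
  infer_instance

/-- Products of weight vectors. -/
theorem mul_mem_WA {a B : ℕ} {mu nu : Fin n → ℕ} {f g : A n} (hf : f ∈ WA n N a mu)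
    (hg : g ∈ WA n B a nu) : f * g ∈ WA n (N + B) a (mu + nu) := by
  classical
  intro d hd
  rw [coeff_mul] at hd
  obtain ⟨x, hx, hx0⟩ := Finset.exists_ne_zero_of_sum_ne_zero hd
  have h1 := Finset.HasAntidiagonal.mem_antidiagonal.1 hx
  obtain ⟨h2, h3, h4⟩ := hf x.1 (left_ne_zero_of_mul hx0)
  obtain ⟨h5, h6, h7⟩ := hg x.2 (right_ne_zero_of_mul hx0)
  rw [← h1, map_add]
  refine ⟨by rw [Multiset.card_add, h2, h5], fun v hv => ?_, by rw [Multiset.sum_add, h4, h7]⟩
  rcases Multiset.mem_add.1 hv with h | h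
  · exact h3 v h
  · exact h6 v h

theorem mul_mem_HA {a B : ℕ} {theta nu : Fin n → ℕ} {f g : A n} (hf : f ∈ HA n N a theta)
    (hg : g ∈ HA n B a nu) : f * g ∈ HA n (N + B) a (theta + nu) := by
  obtain ⟨h1, h2⟩ := mem_HA.1 hf
  obtain ⟨h3, h4⟩ := mem_HA.1 hg
  refine mem_HA.2 ⟨mul_mem_WA h1 h3, fun s i hsi => ?_⟩
  rw [Derivation.leibniz, h2 s i hsi, h4 s i hsi, smul_zero, smul_zero, add_zero]

lemma one_mem_WA (a : ℕ) : (1 : A n) ∈ WA n 0 a 0 := by
  intro d hd
  rw [coeff_one] at hd
  have h : 0 = d := by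
    by_contra h
    rw [if_neg h] at hd
    exact hd rfl
  rw [← h, map_zero]
  exact ⟨rfl, fun v hv => absurd hv (Multiset.notMem_zero v), rfl⟩

theorem pow_mem_WA {a B : ℕ} {nu : Fin n → ℕ} {g : A n} (hg : g ∈ WA n B a nu) (k : ℕ) :
    g ^ k ∈ WA n (k * B) a (k • nu) := by
  induction k with
  | zero =>
    rw [pow_zero, Nat.zero_mul, zero_smul]
    exact one_mem_WA a
  | succ k ih =>
    rw [pow_succ, Nat.succ_mul, succ_nsmul]
    exact mul_mem_WA ih hg

end Vale.Agent.P181.Z.H592
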